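import Vale.Agent.P157.PD.Super
import Vale.Agent.P157.Phase

/-! The limit of the pressure for `e^f = c - w`, `w` positive definite. -/

open MeasureTheory ProbabilityTheory Set Filter
open scoped RealInnerProductSpace ENNReal Topology
open Vale.Agent.P150 (gauss dot)
open Vale.Agent.P157.Lim (avg lse cvec free pressure_eq_free pressure_eq_freeM)

namespace Vale.Agent.P157.PD

variable {ν : Measure ℝ} [IsFiniteMeasure ν]

lemma abs_pot_sub {c : ℝ} (hc : ν.real univ < c) {x y : ℝ} {ν' : Measure ℝ} [IsFiniteMeasure ν']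
    (hc' : ν'.real univ ≤ ν.real univ) :
    |pot ν c x - pot ν' c y| ≤ |ft ν x - ft ν' y| / (c - ν.real univ) := by
  have key : ∀ a b : ℝ, c - ν.real univ ≤ a → c - ν.real univ ≤ b →
      Real.log a - Real.log b ≤ |a - b| / (c - ν.real univ) := by
    intro a b ha hb
    have h0 : 0 < c - ν.real univ := by linarith
    have a0 : 0 < a := by linarith
    have b0 : 0 < b := by linarith
    rw [← Real.log_div a0.ne' b0.ne']
    refine (Real.log_le_sub_one_of_pos (div_pos a0 b0)).trans ?_
    rw [div_sub_one b0.ne']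
    exact (div_le_div_of_nonneg_right (le_abs_self _) b0.le).trans
      (div_le_div_of_nonneg_left (abs_nonneg _) h0 hb)
  have ha : c - ν.real univ ≤ c - ft ν x := by linarith [(abs_le.1 (abs_ft (ν := ν) x)).2]
  have hb : c - ν.real univ ≤ c - ft ν' y := by linarith [(abs_le.1 (abs_ft (ν := ν') y)).2]
  have e : |c - ft ν x - (c - ft ν' y)| = |ft ν x - ft ν' y| := by
    rw [abs_sub_comm (ft ν x)]; congr 1; ring
  have k1 := key _ _ ha hb
  have k2 := key _ _ hb ha
  rw [abs_sub_comm (c - ft ν' y)] at k2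
  rw [e] at k1 k2
  rw [abs_le]; unfold pot
  constructor <;> linarith

lemma abs_pot_le {c : ℝ} (hc : ν.real univ < c) (x : ℝ) :
    |pot ν c x| ≤ max |Real.log (c - ν.real univ)| |Real.log (c + ν.real univ)| := by
  have hb := abs_le.1 (abs_ft (ν := ν) x)
  have l1 := Real.log_le_log (show 0 < c - ν.real univ by linarith) (show c - ν.real univ ≤ c - ft ν x by linarith)
  have l2 := Real.log_le_log (sub_ft_pos hc x) (show c - ft ν x ≤ c + ν.real univ by linarith)
  rw [abs_le]; unfold pot
  constructor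
  · linarith [le_max_left |Real.log (c - ν.real univ)| |Real.log (c + ν.real univ)|,
      neg_abs_le (Real.log (c - ν.real univ))]
  · linarith [le_max_right |Real.log (c - ν.real univ)| |Real.log (c + ν.real univ)|,
      le_abs_self (Real.log (c + ν.real univ))]

lemma mix_pot {c K : ℝ} (hc : ν.real univ < c) (hK : 0 ≤ K) (hsupp : ∀ᵐ t ∂ν, |t| ≤ K) :
    ∃ δ, Mix (pot ν c) δ := by
  set B := max |Real.log (c - ν.real univ)| |Real.log (c + ν.real univ)|
  have h0 : 0 < c - ν.real univ := by linarith
  set L := K * ν.real univ / (c - ν.real univ)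
  refine ⟨B + L, continuous_pot hc, fun x => (abs_pot_le hc x).trans (le_add_of_nonneg_right ?_),
    fun x y => ?_, fun hW _ _ _ h0 h1 E => step hc hW h0 h1 E⟩
  · have := measureReal_nonneg (μ := ν) (s := univ)
    exact div_nonneg (mul_nonneg hK this) h0.le
  · refine (abs_pot_sub hc le_rfl).trans ?_
    have h : |ft ν x - ft ν y| ≤ K * ν.real univ * |x - y| := by
      have i : ∀ z : ℝ, Integrable (fun t => Real.cos (t * z)) ν := fun z =>
        Integrable.of_bound (by fun_prop) 1 (Eventually.of_forall fun t => by simpa using Real.abs_cos_le_one _)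
      rw [ft, ft, ← integral_sub (i x) (i y)]
      rw [← Real.norm_eq_abs]
      refine le_of_le_of_eq (norm_integral_le_of_norm_le_const (C := K * |x - y|)
        (hsupp.mono fun t ht => ?_)) (mul_right_comm _ _ _)
      rw [Real.norm_eq_abs]
      refine (Real.abs_cos_sub_cos_le _ _).trans ?_
      rw [← mul_sub, abs_mul]
      exact mul_le_mul_of_nonneg_right ht (abs_nonneg _)
    refine (div_le_div_of_nonneg_right h h0.le).trans ?_
    rw [mul_div_right_comm]
    exact mul_le_mul_of_nonneg_right (le_add_of_nonneg_left ((abs_nonneg _).trans (le_max_left _ _)))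
      (abs_nonneg _)

/-- Lipschitz dependence of the pressure on the potential -/
lemma pressure_close {N : ℕ} {μ : Measure (Vec N)} [IsProbabilityMeasure μ] {f f' : ℝ → ℝ} {B η : ℝ}
    (hf : Measurable f) (hf' : Measurable f') (hB : ∀ s, |f s| ≤ B) (hB' : ∀ s, |f' s| ≤ B)
    (h : ∀ s, |f s - f' s| ≤ η) (M : ℕ) : |pressure μ f M - pressure μ f' M| ≤ M * η / N := by
  have key : ∀ {u v : ℝ → ℝ}, Measurable u → Measurable v → (∀ s, |u s| ≤ B) → (∀ s, |v s| ≤ B) →
      (∀ s, |u s - v s| ≤ η) → ∀ g : Fin M → Vec N,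
      Real.log (partition μ u g) - Real.log (partition μ v g) ≤ M * η := by
    intro u v hu hv bu bv huv g
    have pu := partition_pos (μ := μ) hu bu g
    have pv := partition_pos (μ := μ) hv bv g
    have hle : partition μ u g ≤ Real.exp (M * η) * partition μ v g := by
      unfold partition
      rw [← integral_const_mul]
      refine integral_mono (integrable_energy hu bu g) ((integrable_energy hv bv g).const_mul _) fun x => ?_
      show Real.exp _ ≤ Real.exp _ * Real.exp _
      rw [← Real.exp_add, Real.exp_le_exp]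
      calc ∑ a, u (⟪g a, x⟫ / √(N:ℝ)) ≤ ∑ a, (η + v (⟪g a, x⟫ / √(N:ℝ))) :=
            Finset.sum_le_sum fun a _ => by linarith [(abs_le.1 (huv (⟪g a, x⟫ / √(N:ℝ)))).2]
        _ = _ := by simp [Finset.sum_add_distrib]
    have := Real.log_le_log pu hle
    rw [Real.log_mul (Real.exp_pos _).ne' pv.ne', Real.log_exp] at this
    linarith
  unfold pressure
  rw [← mul_sub, abs_mul, abs_of_nonneg (by positivity : (0:ℝ) ≤ 1 / N), one_div_mul_eq_div]
  refine div_le_div_of_nonneg_right ?_ (Nat.cast_nonneg N)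
  rw [← integral_sub (integrable_log_partition hf hB) (integrable_log_partition hf' hB')]
  refine abs_integral_le_of_abs_le fun g => abs_le.2 ⟨?_, key hf hf' hB hB' h g⟩
  linarith [key hf' hf hB' hB (fun s => by rw [abs_sub_comm]; exact h s) g]

/-- the limit exists for every `α`, on both configuration spaces -/
theorem limit_exists {μ : ∀ N, Measure (Vec N)} (hμ : μ = isingUniform ∨ μ = sphereUniform) {c : ℝ}
    (hc : ν.real univ < c) {α : ℝ} (hα : 0 < α) :
    ∃ l : ℝ, Tendsto (fun N : ℕ => pressure (μ N) (pot ν c) ⌊α * N⌋₊) atTop (𝓝 l) := by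
  refine cauchySeq_tendsto_of_complete (Metric.cauchySeq_iff'.2 fun ε hε => ?_)
  have hd : 0 < c - ν.real univ := by linarith
  -- truncate the spectral measure
  have htail : Tendsto (fun k : ℕ => ν.real {t : ℝ | (k:ℝ) < |t|}) atTop (𝓝 0) := by
    have hh := tendsto_measure_iInter_atTop (μ := ν) (s := fun k : ℕ => {t : ℝ | (k:ℝ) < |t|})
      (fun k => (measurableSet_lt measurable_const (by fun_prop)).nullMeasurableSet)
      (fun i j hij t (ht : (j:ℝ) < |t|) => lt_of_le_of_lt (Nat.cast_le.2 hij : (i:ℝ) ≤ j) ht) ⟨0, measure_ne_top _ _⟩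
    rw [show (⋂ k : ℕ, {t : ℝ | (k:ℝ) < |t|}) = ∅ from eq_empty_of_forall_notMem fun t ht => by
      obtain ⟨k, hk⟩ := exists_nat_gt |t|
      exact lt_asymm hk (mem_iInter.1 ht k), measure_empty] at hh
    have := (ENNReal.tendsto_toReal ENNReal.zero_ne_top).comp hh
    simpa [measureReal_def, Function.comp_def] using this
  obtain ⟨k, hk⟩ := (htail.eventually (gt_mem_nhds
    (show (0:ℝ) < ε / 4 * (c - ν.real univ) / α by positivity))).exists
  set ν' := ν.restrict {t : ℝ | |t| ≤ k}
  have hs : MeasurableSet {t : ℝ | |t| ≤ (k:ℝ)} := measurableSet_le (by fun_prop) measurable_const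
  have hc' : ν'.real univ ≤ ν.real univ := by
    rw [measureReal_restrict_apply MeasurableSet.univ]
    exact measureReal_mono (by simp)
  have hclose : ∀ x, |pot ν c x - pot ν' c x| ≤ ν.real {t : ℝ | (k:ℝ) < |t|} / (c - ν.real univ) := by
    intro x
    refine (abs_pot_sub hc hc').trans (div_le_div_of_nonneg_right ?_ hd.le)
    have i : Integrable (fun t => Real.cos (t * x)) ν :=
      Integrable.of_bound (by fun_prop) 1 (Eventually.of_forall fun t => by simpa using Real.abs_cos_le_one _)
    have e : ft ν x - ft ν' x = ∫ t in {t : ℝ | (k:ℝ) < |t|}, Real.cos (t * x) ∂ν := by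
      have := integral_add_compl hs i
      rw [show {t : ℝ | |t| ≤ (k:ℝ)}ᶜ = {t : ℝ | (k:ℝ) < |t|} by ext t; simp] at this
      simp only [ft, ν']
      linarith
    rw [e]
    have := norm_setIntegral_le_of_norm_le_const (C := 1) (f := fun t => Real.cos (t * x))
      (measure_lt_top ν {t : ℝ | (k:ℝ) < |t|}) (fun t _ => by simpa using Real.abs_cos_le_one _)
    simpa using this
  have hsupp : ∀ᵐ t ∂ν', |t| ≤ (k:ℝ) := ae_restrict_mem hs
  have hc'' : ν'.real univ < c := lt_of_le_of_lt hc' hc
  obtain ⟨δ, hP⟩ := mix_pot hc'' (Nat.cast_nonneg k) hsupp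
  obtain ⟨l, hl⟩ : ∃ l : ℝ, Tendsto (fun N : ℕ => pressure (μ N) (pot ν' c) ⌊α * N⌋₊) atTop (𝓝 l) := by
    rcases hμ with rfl | rfl
    · obtain ⟨l, hl⟩ := free_limit hP hα
      exact ⟨l, hl.congr fun N => (pressure_eq_free hP.cont hP.bnd _).symm⟩
    · obtain ⟨l, hl⟩ := sphere_limit hP hα
      refine ⟨l, hl.congr' ?_⟩
      filter_upwards [eventually_gt_atTop 0] with N hN
      exact (pressure_eq_freeM hN hP.cont _).symm
  have hnear : ∀ N : ℕ, 0 < N → |pressure (μ N) (pot ν c) ⌊α * N⌋₊ - pressure (μ N) (pot ν' c) ⌊α * N⌋₊| ≤ ε / 4 := by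
    intro N hN
    have : IsProbabilityMeasure (μ N) := by
      rcases hμ with rfl | rfl
      · exact (carried_ising N).prob
      · exact (carried_sphere hN).prob
    set B := max |Real.log (c - ν.real univ)| |Real.log (c + ν.real univ)|
    refine (pressure_close (continuous_pot hc).measurable (continuous_pot hc'').measurable
      (B := max B δ) (fun s => (abs_pot_le hc s).trans (le_max_left _ _))
      (fun s => (hP.bnd s).trans (le_max_right _ _)) hclose _).trans ?_
    have hN0 : (0:ℝ) < N := by exact_mod_cast hN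
    have hη : ν.real {t : ℝ | (k:ℝ) < |t|} / (c - ν.real univ) ≤ ε / 4 / α := by
      rw [div_le_iff₀ hd, div_mul_eq_mul_div]; exact hk.le
    rw [div_le_iff₀ hN0]
    refine (mul_le_mul (Nat.floor_le (by positivity)) hη (div_nonneg measureReal_nonneg hd.le)
      (by positivity)).trans_eq ?_
    field_simp
  obtain ⟨N₀, hN₀⟩ := Metric.tendsto_atTop.1 hl (ε / 4) (by positivity)
  refine ⟨max N₀ 1, fun N hN => ?_⟩
  have hN' : 1 ≤ max N₀ 1 := le_max_right _ _
  have a := hnear N (lt_of_lt_of_le hN' hN)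
  have b := hnear (max N₀ 1) hN'
  have p := hN₀ N ((le_max_left _ _).trans hN)
  have q := hN₀ (max N₀ 1) (le_max_left _ _)
  rw [Real.dist_eq] at p q ⊢
  rw [abs_lt] at p q ⊢
  rw [abs_le] at a b
  constructor <;> linarith

end Vale.Agent.P157.PD
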