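import Vale.Agent.P157.Lim.Split

/-! For a positive-definite `w` every moment `E (∑ r_s w(u_s))^n` is convex along the interpolation of
two covariances, so `E log (c - ∑ r_s w(u_s))` is concave, at any amplitude. -/

open MeasureTheory ProbabilityTheory Set Filter
open scoped RealInnerProductSpace ENNReal Topology
open Vale.Agent.P150 (gauss dot)
open Vale.Agent.P157.Lim

namespace Vale.Agent.P157.PD

/-- the positive-definite function with spectral measure `ν` -/
noncomputable def ft (ν : Measure ℝ) (u : ℝ) : ℝ := ∫ t, Real.cos (t * u) ∂ν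

variable {ν : Measure ℝ} [IsFiniteMeasure ν]

lemma continuous_ft : Continuous (ft ν) :=
  continuous_of_dominated (bound := fun _ => 1)
    (fun u => Continuous.aestronglyMeasurable (by fun_prop))
    (fun u => Eventually.of_forall fun t => by simpa using Real.abs_cos_le_one _)
    (integrable_const _) (Eventually.of_forall fun t => by fun_prop)

lemma abs_ft (u : ℝ) : |ft ν u| ≤ ν.real univ := by
  have := norm_integral_le_of_norm_le_const (μ := ν) (f := fun t => Real.cos (t * u)) (C := 1)
    (Eventually.of_forall fun t => by simpa using Real.abs_cos_le_one _)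
  simpa [ft] using this

variable {ι κ S : Type*} [Fintype ι] [Fintype κ] [Fintype S]

lemma integral_cos_dot (v : ι → ℝ) :
    ∫ g, Real.cos (dot v g) ∂gauss ι = Real.exp (-(dot v v) / 2) := by
  set V : EuclideanSpace ℝ ι := WithLp.toLp 2 v
  have hm : (gauss ι).map (WithLp.toLp 2) = stdGaussian (EuclideanSpace ℝ ι) := map_pi_eq_stdGaussian
  have h := charFun_stdGaussian (E := EuclideanSpace ℝ ι) V
  rw [charFun_apply] at h
  have hd : ∀ g : ι → ℝ, ⟪(WithLp.toLp 2 g : EuclideanSpace ℝ ι), V⟫ = dot v g := fun g => by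
    simp [V, PiLp.inner_apply, dot]
  have hn : ‖V‖ ^ 2 = dot v v := by
    rw [← real_inner_self_eq_norm_sq]; exact hd v
  rw [← hm, integral_map (Measurable.aemeasurable (by fun_prop))
    (Continuous.aestronglyMeasurable (by fun_prop))] at h
  simp only [hd] at h
  have hi : Integrable (fun g : ι → ℝ => Complex.exp ((dot v g : ℝ) * Complex.I)) (gauss ι) :=
    Integrable.of_bound (Continuous.aestronglyMeasurable (by unfold dot; fun_prop)) 1
      (Eventually.of_forall fun g => by simp [Complex.norm_exp_ofReal_mul_I])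
  have h2 := congrArg Complex.re h
  rw [← Complex.reCLM_apply, ← ContinuousLinearMap.integral_comp_comm _ hi] at h2
  simp only [Complex.reCLM_apply, Complex.exp_ofReal_mul_I_re] at h2
  rw [h2, show -((‖V‖ : ℝ) : ℂ) ^ 2 / 2 = ((-(‖V‖ ^ 2) / 2 : ℝ) : ℂ) by push_cast; ring,
    Complex.exp_ofReal_re, hn]

variable (ν) in
/-- the moment with an oscillatory factor -/
noncomputable def mom (r : S → ℝ) (a : S → ι → ℝ) (b : S → κ → ℝ) (t : ℝ) (n : ℕ)
    (A : ι → ℝ) (B : κ → ℝ) : ℝ :=
  ∫ g, Real.cos (dot (cvec (fun _ : Unit => A) (fun _ => B) t ()) g) *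
    (∑ s, r s * ft ν (dot (cvec a b t s) g)) ^ n ∂gauss (ι ⊕ κ)

variable {r : S → ℝ} {a : S → ι → ℝ} {b : S → κ → ℝ}

lemma abs_y (hr : ∀ s, 0 ≤ r s) (t : ℝ) (g : ι ⊕ κ → ℝ) :
    |∑ s, r s * ft ν (dot (cvec a b t s) g)| ≤ (∑ s, r s) * ν.real univ := by
  rw [Finset.sum_mul]
  refine (Finset.abs_sum_le_sum_abs _ _).trans (Finset.sum_le_sum fun s _ => ?_)
  rw [abs_mul, abs_of_nonneg (hr s)]
  exact mul_le_mul_of_nonneg_left (abs_ft _) (hr s)

lemma dot_cvec_linear (A : ι → ℝ) (B : κ → ℝ) (A' : ι → ℝ) (B' : κ → ℝ) (τ t : ℝ) (g : ι ⊕ κ → ℝ) :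
    dot (cvec (fun _ : Unit => fun i => A i + τ * A' i) (fun _ => fun j => B j + τ * B' j) t ()) g =
      dot (cvec (fun _ : Unit => A) (fun _ => B) t ()) g +
        τ * dot (cvec (fun _ : Unit => A') (fun _ => B') t ()) g := by
  simp only [dot, cvec, Fintype.sum_sum_type, Sum.elim_inl, Sum.elim_inr]
  rw [mul_add τ, Finset.mul_sum, Finset.mul_sum, add_add_add_comm, ← Finset.sum_add_distrib,
    ← Finset.sum_add_distrib]
  exact congrArg₂ _ (Finset.sum_congr rfl fun i _ => by ring) (Finset.sum_congr rfl fun i _ => by ring)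

omit [Fintype S] in
lemma dot_cvec_self (A : ι → ℝ) (B : κ → ℝ) {t : ℝ} (h0 : 0 ≤ t) (h1 : t ≤ 1) :
    dot (cvec (fun _ : Unit => A) (fun _ => B) t ()) (cvec (fun _ : Unit => A) (fun _ => B) t ()) =
      t * dot A A + (1 - t) * dot B B := by
  simp only [dot, cvec, Fintype.sum_sum_type, Sum.elim_inl, Sum.elim_inr, Finset.mul_sum]
  exact congrArg₂ _
    (Finset.sum_congr rfl fun i _ => by linear_combination (A i * A i) * Real.mul_self_sqrt h0)
    (Finset.sum_congr rfl fun i _ => by
      linear_combination (B i * B i) * Real.mul_self_sqrt (show 0 ≤ 1 - t by linarith))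

lemma mom_succ (hr : ∀ s, 0 ≤ r s) (t : ℝ) (n : ℕ) (A : ι → ℝ) (B : κ → ℝ) :
    mom ν r a b t (n + 1) A B = ∑ s, r s * ∫ τ,
      (mom ν r a b t n (fun i => A i + τ * a s i) (fun j => B j + τ * b s j) +
        mom ν r a b t n (fun i => A i + (-τ) * a s i) (fun j => B j + (-τ) * b s j)) / 2 ∂ν := by
  set y := fun g => ∑ s, r s * ft ν (dot (cvec a b t s) g)
  set p := fun g => dot (cvec (fun _ : Unit => A) (fun _ => B) t ()) g
  set q := fun s g => dot (cvec a b t s) g
  set R := (∑ s, r s) * ν.real univ
  have hR : 0 ≤ R := mul_nonneg (Finset.sum_nonneg fun s _ => hr s) measureReal_nonneg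
  have yc : Continuous y := continuous_finsetSum _ fun s _ =>
    continuous_const.mul (continuous_ft.comp (by unfold dot; fun_prop))
  have pc : Continuous p := by unfold p dot; fun_prop
  have qc : ∀ s, Continuous (q s) := fun s => by unfold q dot; fun_prop
  have yb : ∀ g, |y g ^ n| ≤ R ^ n := fun g => by
    rw [abs_pow]; exact pow_le_pow_left₀ (abs_nonneg _) (abs_y hr t g) n
  have e1 : mom ν r a b t (n + 1) A B =
      ∑ s, r s * ∫ g, Real.cos (p g) * y g ^ n * ft ν (q s g) ∂gauss (ι ⊕ κ) := by
    have e : ∀ g, Real.cos (p g) * y g ^ (n + 1) = ∑ s, r s * (Real.cos (p g) * y g ^ n * ft ν (q s g)) := by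
      intro g
      rw [pow_succ, ← mul_assoc]
      simp only [y, q, Finset.mul_sum]
      exact Finset.sum_congr rfl fun s _ => by ring
    show ∫ g, Real.cos (p g) * y g ^ (n + 1) ∂gauss (ι ⊕ κ) = _
    simp only [e]
    rw [integral_finsetSum _ fun s _ => ?_]
    · simp only [integral_const_mul]
    · refine (Integrable.of_bound (Continuous.aestronglyMeasurable ?_) (R ^ n * ν.real univ)
        (Eventually.of_forall fun g => ?_)).const_mul _
      · exact ((Real.continuous_cos.comp pc).mul (yc.pow n)).mul (continuous_ft.comp (qc s))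
      · rw [Real.norm_eq_abs, abs_mul, abs_mul]
        exact mul_le_mul ((mul_le_mul (Real.abs_cos_le_one _) (yb g) (abs_nonneg _) zero_le_one).trans_eq
          (one_mul _)) (abs_ft _) (abs_nonneg _) (by positivity)
  rw [e1]
  refine Finset.sum_congr rfl fun s _ => congrArg _ ?_
  have e2 : ∀ g, Real.cos (p g) * y g ^ n * ft ν (q s g) =
      ∫ τ, Real.cos (p g) * y g ^ n * Real.cos (τ * q s g) ∂ν := fun g => by
    rw [integral_const_mul]; rfl
  simp only [e2]
  rw [integral_integral_swap]
  · refine integral_congr_ae (Eventually.of_forall fun τ => ?_)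
    have hm : ∀ σ : ℝ, mom ν r a b t n (fun i => A i + σ * a s i) (fun j => B j + σ * b s j) =
        ∫ g, Real.cos (p g + σ * q s g) * y g ^ n ∂gauss (ι ⊕ κ) := fun σ => by
      refine integral_congr_ae (Eventually.of_forall fun g => ?_)
      simp only [dot_cvec_linear]
      rfl
    have hi : ∀ σ : ℝ, Integrable (fun g => Real.cos (p g + σ * q s g) * y g ^ n) (gauss (ι ⊕ κ)) :=
      fun σ => Integrable.of_bound
        ((Real.continuous_cos.comp (pc.add (continuous_const.mul (qc s)))).mul (yc.pow n)).aestronglyMeasurable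
        (R ^ n) (Eventually.of_forall fun g => by
          rw [Real.norm_eq_abs, abs_mul]
          exact (mul_le_mul (Real.abs_cos_le_one _) (yb g) (abs_nonneg _) zero_le_one).trans_eq (one_mul _))
    simp only [hm]
    rw [← integral_add (hi τ) (hi (-τ)), ← integral_div]
    refine integral_congr_ae (Eventually.of_forall fun g => ?_)
    simp only [neg_mul, ← sub_eq_add_neg, Real.cos_add, Real.cos_sub]
    ring
  · refine Integrable.of_bound (Continuous.aestronglyMeasurable ?_) (R ^ n) (Eventually.of_forall fun z => ?_)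
    · exact (((Real.continuous_cos.comp pc).mul (yc.pow n)).comp continuous_fst).mul
        (Real.continuous_cos.comp (continuous_snd.mul ((qc s).comp continuous_fst)))
    · simp only [Function.uncurry, Real.norm_eq_abs, abs_mul]
      exact (mul_le_mul ((mul_le_mul (Real.abs_cos_le_one _) (yb z.1) (abs_nonneg _) zero_le_one).trans_eq
        (one_mul _)) (Real.abs_cos_le_one _) (abs_nonneg _) (by positivity)).trans_eq (mul_one _)

lemma integrable_mom (hr : ∀ s, 0 ≤ r s) (t : ℝ) (n : ℕ) (s : S) (A : ι → ℝ) (B : κ → ℝ) (k : ℝ) :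
    Integrable (fun τ => mom ν r a b t n (fun i => A i + k * τ * a s i) (fun j => B j + k * τ * b s j)) ν := by
  set R := (∑ s, r s) * ν.real univ
  have yc : Continuous fun g : ι ⊕ κ → ℝ => ∑ s, r s * ft ν (dot (cvec a b t s) g) :=
    continuous_finsetSum _ fun s _ => continuous_const.mul (continuous_ft.comp (by unfold dot; fun_prop))
  have bnd : ∀ τ g, |Real.cos (dot (cvec (fun _ : Unit => fun i => A i + k * τ * a s i)
      (fun _ => fun j => B j + k * τ * b s j) t ()) g) *
      (∑ s, r s * ft ν (dot (cvec a b t s) g)) ^ n| ≤ R ^ n := fun τ g => by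
    rw [abs_mul, abs_pow]
    exact (mul_le_mul (Real.abs_cos_le_one _) (pow_le_pow_left₀ (abs_nonneg _) (abs_y hr t g) n)
      (by positivity) zero_le_one).trans_eq (one_mul _)
  refine Integrable.of_bound (Continuous.aestronglyMeasurable ?_) (R ^ n) (Eventually.of_forall fun τ => ?_)
  · refine continuous_of_dominated (bound := fun _ => R ^ n) (fun τ => ?_)
      (fun τ => Eventually.of_forall fun g => bnd τ g) (integrable_const _)
      (Eventually.of_forall fun g => ?_)
    · exact ((Real.continuous_cos.comp (by unfold dot; fun_prop)).mul (yc.pow n)).aestronglyMeasurable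
    · simp only [dot_cvec_linear]
      fun_prop
  · exact (norm_integral_le_of_norm_le_const (Eventually.of_forall fun g => bnd τ g)).trans_eq (by simp)

/-- moments are convex along the interpolation -/
lemma mom_convex (hr : ∀ s, 0 ≤ r s) {t : ℝ} (h0 : 0 ≤ t) (h1 : t ≤ 1) (n : ℕ) :
    ∀ (A : ι → ℝ) (B : κ → ℝ),
      mom ν r a b t n A B ≤ t * mom ν r a b 1 n A B + (1 - t) * mom ν r a b 0 n A B := by
  induction n with
  | zero =>
    intro A B
    have e : ∀ u : ℝ, 0 ≤ u → u ≤ 1 →
        mom ν r a b u 0 A B = Real.exp (-(u * dot A A + (1 - u) * dot B B) / 2) := fun u u0 u1 => by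
      rw [← dot_cvec_self A B u0 u1, ← integral_cos_dot]
      simp [mom]
    rw [e t h0 h1, e 1 zero_le_one le_rfl, e 0 le_rfl zero_le_one]
    have := convexOn_exp.2 (mem_univ (-(dot A A) / 2)) (mem_univ (-(dot B B) / 2)) h0
      (show 0 ≤ 1 - t by linarith) (by ring)
    simp only [smul_eq_mul] at this
    simp only [one_mul, zero_mul, sub_self, sub_zero, add_zero, zero_add]
    rwa [show -(t * dot A A + (1 - t) * dot B B) / 2 = t * (-dot A A / 2) + (1 - t) * (-dot B B / 2) by ring]
  | succ n ih =>
    intro A B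
    simp only [mom_succ hr, Finset.mul_sum, ← Finset.sum_add_distrib]
    refine Finset.sum_le_sum fun s _ => ?_
    have hi : ∀ u : ℝ, Integrable (fun τ =>
        (mom ν r a b u n (fun i => A i + τ * a s i) (fun j => B j + τ * b s j) +
        mom ν r a b u n (fun i => A i + (-τ) * a s i) (fun j => B j + (-τ) * b s j)) / 2) ν := fun u => by
      have p := integrable_mom (ν := ν) (a := a) (b := b) hr u n s A B 1
      have m := integrable_mom (ν := ν) (a := a) (b := b) hr u n s A B (-1)
      simp only [one_mul, neg_mul] at p m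
      simpa [neg_mul] using (p.add m).div_const 2
    rw [mul_left_comm t, mul_left_comm (1 - t), ← mul_add]
    refine mul_le_mul_of_nonneg_left ?_ (hr s)
    rw [← integral_const_mul, ← integral_const_mul, ← integral_add ((hi 1).const_mul _) ((hi 0).const_mul _)]
    refine integral_mono (hi t) (((hi 1).const_mul _).add ((hi 0).const_mul _)) fun τ => ?_
    have a1 := ih (fun i => A i + τ * a s i) (fun j => B j + τ * b s j)
    have a2 := ih (fun i => A i + (-τ) * a s i) (fun j => B j + (-τ) * b s j)
    linarith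

/-- expected `log (1 - ·)` is concave along the interpolation -/
lemma log_concave (hr : ∀ s, 0 ≤ r s) (hsum : (∑ s, r s) * ν.real univ < 1) {t : ℝ} (h0 : 0 ≤ t)
    (h1 : t ≤ 1) :
    t * (∫ g, Real.log (1 - ∑ s, r s * ft ν (dot (cvec a b 1 s) g)) ∂gauss (ι ⊕ κ)) +
      (1 - t) * (∫ g, Real.log (1 - ∑ s, r s * ft ν (dot (cvec a b 0 s) g)) ∂gauss (ι ⊕ κ)) ≤
    ∫ g, Real.log (1 - ∑ s, r s * ft ν (dot (cvec a b t s) g)) ∂gauss (ι ⊕ κ) := by
  set R := (∑ s, r s) * ν.real univ
  have hR : 0 ≤ R := mul_nonneg (Finset.sum_nonneg fun s _ => hr s) measureReal_nonneg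
  set A0 : ι → ℝ := fun _ => 0
  set B0 : κ → ℝ := fun _ => 0
  have hs : ∀ u, HasSum (fun n : ℕ => mom ν r a b u (n + 1) A0 B0 / (n + 1))
      (-∫ g, Real.log (1 - ∑ s, r s * ft ν (dot (cvec a b u s) g)) ∂gauss (ι ⊕ κ)) := by
    intro u
    set y := fun g => ∑ s, r s * ft ν (dot (cvec a b u s) g)
    have yc : Continuous y := continuous_finsetSum _ fun s _ =>
      continuous_const.mul (continuous_ft.comp (by unfold dot; fun_prop))
    have hz : ∀ g : ι ⊕ κ → ℝ, dot (cvec (fun _ : Unit => A0) (fun _ => B0) u ()) g = 0 := fun g => by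
      simp [dot, cvec, A0, B0]
    have key := hasSum_integral_of_dominated_convergence (μ := gauss (ι ⊕ κ))
      (F := fun (n : ℕ) g => y g ^ (n + 1) / (n + 1)) (f := fun g => -Real.log (1 - y g))
      (fun n _ => R ^ (n + 1)) (fun n => ((yc.pow _).div_const _).aestronglyMeasurable)
      (fun n => Eventually.of_forall fun g => by
        rw [Real.norm_eq_abs, abs_div, abs_pow, abs_of_pos (show (0:ℝ) < n + 1 by positivity)]
        exact (div_le_self (by positivity) (by linarith [Nat.cast_nonneg (α := ℝ) n])).trans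
          (pow_le_pow_left₀ (abs_nonneg _) (abs_y hr u g) _))
      (Eventually.of_forall fun _ => by
        simpa [pow_succ] using (summable_geometric_of_lt_one hR hsum).mul_right R)
      (integrable_const _)
      (Eventually.of_forall fun g =>
        Real.hasSum_pow_div_log_of_abs_lt_one (lt_of_le_of_lt (abs_y hr u g) hsum))
    rw [integral_neg] at key
    refine key.congr_fun fun n => ?_
    rw [mom, integral_div]
    simp [hz, y]
  have h := hasSum_le (f := fun n : ℕ => mom ν r a b t (n + 1) A0 B0 / (n + 1))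
    (g := fun n : ℕ => t * (mom ν r a b 1 (n + 1) A0 B0 / (n + 1)) +
      (1 - t) * (mom ν r a b 0 (n + 1) A0 B0 / (n + 1))) (fun n => ?_) (hs t)
    (((hs 1).mul_left t).add ((hs 0).mul_left (1 - t)))
  · linarith
  · have := div_le_div_of_nonneg_right (mom_convex (ν := ν) (a := a) (b := b) hr h0 h1 (n + 1) A0 B0)
      (show (0:ℝ) ≤ n + 1 by positivity)
    rw [add_div, mul_div_assoc, mul_div_assoc] at this
    exact this

/-- the potential -/
noncomputable def pot (ν : Measure ℝ) (c : ℝ) (u : ℝ) : ℝ := Real.log (c - ft ν u)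

lemma sub_ft_pos {c : ℝ} (hc : ν.real univ < c) (u : ℝ) : 0 < c - ft ν u := by
  linarith [(abs_le.1 (abs_ft (ν := ν) u)).2]

lemma continuous_pot {c : ℝ} (hc : ν.real univ < c) : Continuous (pot ν c) :=
  (continuous_const.sub continuous_ft).log fun u => (sub_ft_pos hc u).ne'

/-- one pattern: the mixed system dominates the mixture -/
lemma step [Nonempty S] {c : ℝ} (hc : ν.real univ < c) {W : S → ℝ} (hW : ∀ s, 0 < W s) {t : ℝ}
    (h0 : 0 ≤ t) (h1 : t ≤ 1) (E : S → ℝ) :
    t * avg (pot ν c) (cvec a b 1) (lse W) E + (1 - t) * avg (pot ν c) (cvec a b 0) (lse W) E ≤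
      avg (pot ν c) (cvec a b t) (lse W) E := by
  have c0 : 0 < c := lt_of_le_of_lt measureReal_nonneg hc
  set T := ∑ s, W s * Real.exp (E s)
  have T0 : 0 < T := Finset.sum_pos (fun s _ => mul_pos (hW s) (Real.exp_pos _)) Finset.univ_nonempty
  set q : S → ℝ := fun s => W s * Real.exp (E s) / (T * c)
  have q0 : ∀ s, 0 ≤ q s := fun s => div_nonneg (mul_pos (hW s) (Real.exp_pos _)).le (by positivity)
  have qs : ∑ s, q s = 1 / c := by
    simp only [q, ← Finset.sum_div]; rw [show (∑ s, W s * Real.exp (E s)) = T from rfl]; field_simp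
  have hsum : (∑ s, q s) * ν.real univ < 1 := by
    rw [qs, one_div_mul_eq_div, div_lt_one c0]; exact hc
  have e : ∀ u, avg (pot ν c) (cvec a b u) (lse W) E = Real.log (T * c) +
      ∫ g, Real.log (1 - ∑ s, q s * ft ν (dot (cvec a b u s) g)) ∂gauss (ι ⊕ κ) := by
    intro u
    set y := fun g => ∑ s, q s * ft ν (dot (cvec a b u s) g)
    have hy : ∀ g, 0 < 1 - y g := fun g => by
      linarith [(abs_le.1 (abs_y (ν := ν) (a := a) (b := b) q0 u g)).2]
    have yc : Continuous fun g => Real.log (1 - y g) :=
      (continuous_const.sub (continuous_finsetSum _ fun s _ =>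
        continuous_const.mul (continuous_ft.comp (by unfold dot; fun_prop)))).log fun g => (hy g).ne'
    have hpt : ∀ g, lse W (E + inc (pot ν c) (cvec a b u) g) = Real.log (T * c) + Real.log (1 - y g) := by
      intro g
      rw [← Real.log_mul (by positivity) (hy g).ne', lse]
      congr 1
      rw [mul_sub, mul_one]
      simp only [y, Finset.mul_sum, Pi.add_apply, inc, pot, Real.exp_add,
        Real.exp_log (sub_ft_pos hc _)]
      rw [show T * c = ∑ s, W s * Real.exp (E s) * c by rw [← Finset.sum_mul], ← Finset.sum_sub_distrib]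
      refine Finset.sum_congr rfl fun s _ => ?_
      rw [← Finset.sum_mul]
      simp only [q]
      rw [show (∑ s, W s * Real.exp (E s)) = T from rfl]
      field_simp
    simp only [avg, hpt]
    set R := (∑ s, q s) * ν.real univ
    have hi : Integrable (fun g => Real.log (1 - y g)) (gauss (ι ⊕ κ)) :=
      Integrable.of_bound yc.aestronglyMeasurable (max |Real.log (1 - R)| |Real.log (1 + R)|)
        (Eventually.of_forall fun g => by
          have hb := abs_le.1 (abs_y (ν := ν) (a := a) (b := b) q0 u g)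
          have hR : R < 1 := hsum
          have l1 := Real.log_le_log (show 0 < 1 - R by linarith) (show 1 - R ≤ 1 - y g by linarith [hb.2])
          have l2 := Real.log_le_log (hy g) (show 1 - y g ≤ 1 + R by linarith [hb.1])
          rw [Real.norm_eq_abs, abs_le]
          constructor
          · linarith [le_max_left |Real.log (1 - R)| |Real.log (1 + R)|, neg_abs_le (Real.log (1 - R))]
          · linarith [le_max_right |Real.log (1 - R)| |Real.log (1 + R)|, le_abs_self (Real.log (1 + R))])
    rw [integral_add (integrable_const _) hi, integral_const, probReal_univ, one_smul]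
  have := log_concave (ν := ν) (a := a) (b := b) q0 hsum h0 h1
  rw [e, e, e]
  linarith

end Vale.Agent.P157.PD
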