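import Vale.Agent.P157.PD.Core
import Vale.Agent.P157.Lim.Main
import Vale.Agent.P157.Lim.Sphere

/-! Approximate superadditivity from the one-pattern inequality (no smallness, no moment condition). -/

open MeasureTheory ProbabilityTheory Set Filter
open scoped RealInnerProductSpace ENNReal Topology
open Vale.Agent.P150 (gauss dot l1 abs_le_l1 l1_nonneg integrable_of_bound)
open Vale.Agent.P157.Lim hiding mixture_le penalty free_superadd free_limit penalty_measure freeM_superadd sphere_limit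

namespace Vale.Agent.P157.PD

set_option linter.unusedSectionVars false

/-- what the superadditivity argument uses -/
structure Mix (f : ℝ → ℝ) (δ : ℝ) : Prop where
  cont : Continuous f
  bnd : ∀ x, |f x| ≤ δ
  lip : ∀ x y, |f x - f y| ≤ δ * |x - y|
  step : ∀ {S ι κ : Type} [Fintype S] [Nonempty S] [Fintype ι] [Fintype κ] {W : S → ℝ},
    (∀ s, 0 < W s) → ∀ {a : S → ι → ℝ} {b : S → κ → ℝ} {θ : ℝ}, 0 ≤ θ → θ ≤ 1 → ∀ E : S → ℝ,
    θ * avg f (cvec a b 1) (lse W) E + (1 - θ) * avg f (cvec a b 0) (lse W) E ≤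
      avg f (cvec a b θ) (lse W) E

variable {S S' ι κ : Type} [Fintype S] [Fintype S'] [Fintype ι] [Fintype κ]
variable {f : ℝ → ℝ} {δ : ℝ}

lemma mixture_le [Nonempty S] (hP : Mix f δ) {W : S → ℝ} (hW : ∀ s, 0 < W s) {a : S → ι → ℝ} {b : S → κ → ℝ}
    {θ : ℝ} (h0 : 0 ≤ θ) (h1 : θ ≤ 1) :
    ∀ (M : ℕ) (E : S → ℝ),
      binAvg θ M (fun i j => (avg f (cvec a b 1))^[i] ((avg f (cvec a b 0))^[j] (lse W)) E) ≤
        (avg f (cvec a b θ))^[M] (lse W) E := by
  have hf : Continuous f := hP.cont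
  have hb := hP.bnd
  have hL := good_lse hW
  set A := cvec a b 1
  set B := cvec a b 0
  set C := cvec a b θ
  set H := fun (i j : ℕ) => (avg f A)^[i] ((avg f B)^[j] (lse W)) with hH
  have hg : ∀ i j, Good (H i j) := fun i j =>
    good_iterate hf hb (good_iterate hf hb hL B j) A i
  intro M
  induction M with
  | zero => exact fun E => le_rfl
  | succ M ih =>
    intro E
    rw [Function.iterate_succ_apply']
    refine le_trans ?_ (avg_mono hf hb (good_binAvg h0 h1 M hg) (good_iterate hf hb hL C M) ih C E)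
    rw [avg_binAvg hf hb h0 h1 C E M hg]
    simp only [binAvg]
    rw [← binAvg_lin]
    refine binAvg_mono h0 h1 M fun i j => ?_
    have hgA := good_avg hf hb hL A
    have hgB := good_avg hf hb hL B
    have eC : avg f C (H i j) = (avg f A)^[i] ((avg f B)^[j] (avg f C (lse W))) := by
      rw [iterate_comm hf hb (good_iterate hf hb hL B j) C A i, iterate_comm hf hb hL C B j]
    have eA : (avg f A)^[i + 1] ((avg f B)^[j] (lse W)) = (avg f A)^[i] ((avg f B)^[j] (avg f A (lse W))) := by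
      rw [Function.iterate_succ_apply, iterate_comm hf hb hL A B j]
    rw [eC, eA, Function.iterate_succ_apply]
    set Ψ : (S → ℝ) → ℝ := fun E => θ * avg f A (lse W) E + (1 - θ) * avg f B (lse W) E with hΨ
    have hgΨ : Good Ψ := fun E E' => by
      have a' := mul_le_mul_of_nonneg_left (hgA E E') h0
      have b' := mul_le_mul_of_nonneg_left (hgB E E') (show 0 ≤ 1 - θ by linarith)
      simp only [hΨ]; linarith
    have hgC := good_avg hf hb hL C
    have lin : ∀ {ι' : Type _} [Fintype ι'] (x : S → ι' → ℝ) (n : ℕ) {P Q : (S → ℝ) → ℝ},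
        Good P → Good Q → (avg f x)^[n] (fun E => θ * P E + (1 - θ) * Q E) =
          fun E => θ * (avg f x)^[n] P E + (1 - θ) * (avg f x)^[n] Q E := by
      intro ι' _ x n P Q hP' hQ'
      induction n with
      | zero => rfl
      | succ n ih2 =>
        rw [Function.iterate_succ_apply', Function.iterate_succ_apply', Function.iterate_succ_apply', ih2]
        funext E
        show ∫ g, (θ * (avg f x)^[n] P (E + inc f x g) + (1 - θ) * (avg f x)^[n] Q (E + inc f x g)) ∂gauss ι' =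
          θ * ∫ g, (avg f x)^[n] P (E + inc f x g) ∂gauss ι' +
            (1 - θ) * ∫ g, (avg f x)^[n] Q (E + inc f x g) ∂gauss ι'
        rw [integral_add ((integrable_avg hf hb (good_iterate hf hb hP' x n) x E).const_mul θ)
          ((integrable_avg hf hb (good_iterate hf hb hQ' x n) x E).const_mul _), integral_const_mul,
          integral_const_mul]
    refine le_trans (le_of_eq ?_) (iterate_mono hf hb (good_iterate hf hb hgΨ B j)
      (good_iterate hf hb hgC B j)
      (fun E => iterate_mono hf hb hgΨ hgC (hP.step hW h0 h1) B j E) A i E)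
    rw [lin B j hgA hgB, lin A i (good_iterate hf hb hgA B j) (good_iterate hf hb hgB B j)]

/-- the interpolation inequality after the deviation penalty -/
lemma penalty [Nonempty S] [Nonempty S'] (hP : Mix f δ) {W₁ : S → ℝ} {W₂ : S' → ℝ} (w1 : ∀ s, 0 < W₁ s)
    (w2 : ∀ s, 0 < W₂ s) {a : S → ι → ℝ} {b : S' → κ → ℝ} {t : ℝ} (h0 : 0 ≤ t) (h1 : t ≤ 1) (M m₁ m₂ : ℕ) {r : ℝ} (hr : 0 < r) :
    (avg f a)^[m₁] (lse W₁) 0 + (avg f b)^[m₂] (lse W₂) 0 - δ * r
      - δ / (2 * r) * ((M:ℝ) * t * (1 - t) + (t * M - m₁) ^ 2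
          + ((M:ℝ) * t * (1 - t) + ((1 - t) * M - m₂) ^ 2)) ≤
      (avg f (cvec (fun s : S × S' => a s.1) (fun s => b s.2) t))^[M]
        (lse fun s => W₁ s.1 * W₂ s.2) 0 := by
  have hf : Continuous f := hP.cont
  have hb := hP.bnd
  have hδ0 : 0 ≤ δ := delta_nonneg hf hb
  set A := fun i => (avg f a)^[i] (lse W₁) 0
  set B := fun j => (avg f b)^[j] (lse W₂) 0
  refine le_trans ?_ (mixture_le (W := fun s : S × S' => W₁ s.1 * W₂ s.2) (a := fun s : S × S' => a s.1)
    (b := fun s => b s.2) hP (fun s => mul_pos (w1 s.1) (w2 s.2))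
    h0 h1 M 0)
  have hsplit : ∀ i j, (avg f (cvec (fun s : S × S' => a s.1) (fun s => b s.2) 1))^[i]
      ((avg f (cvec (fun s : S × S' => a s.1) (fun s => b s.2) 0))^[j]
        (lse fun s => W₁ s.1 * W₂ s.2)) 0 = A i + B j := fun i j => by
    have := split hf hb w1 w2 (a := a) (b := b) i j 0 0
    simp only [Pi.zero_apply, add_zero] at this
    exact this
  simp only [hsplit]
  have lip : ∀ (i k : ℕ) (u v : ℝ), |u - v| ≤ δ * |(i:ℝ) - k| →
      v - (δ / (2 * r) * ((i:ℝ) - k) ^ 2 + δ * r / 2) ≤ u := by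
    intro i k u v h
    have hx : |(i:ℝ) - k| ≤ (((i:ℝ) - k) ^ 2 / r + r) / 2 := by
      rw [div_add' _ _ _ hr.ne', div_div, le_div_iff₀ (by positivity)]
      nlinarith [sq_nonneg (|(i:ℝ) - k| - r), sq_abs ((i:ℝ) - k)]
    have hmul := mul_le_mul_of_nonneg_left hx hδ0
    rw [show δ * ((((i:ℝ) - k) ^ 2 / r + r) / 2) = δ / (2 * r) * ((i:ℝ) - k) ^ 2 + δ * r / 2 by
      field_simp] at hmul
    linarith [(abs_le.1 h).1]
  refine le_trans ?_ (binAvg_mono h0 h1 M fun i j =>
    (show A m₁ + B m₂ - δ * r + (-(δ / (2 * r))) * ((i:ℝ) - m₁) ^ 2 +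
      (-(δ / (2 * r))) * ((j:ℝ) - m₂) ^ 2 ≤ A i + B j by
        have a1 := lip i m₁ (A i) (A m₁) (abs_iterate_sub hf hb (good_lse w1) a 0 i m₁)
        have a2 := lip j m₂ (B j) (B m₂) (abs_iterate_sub hf hb (good_lse w2) b 0 j m₂)
        linarith))
  have L1 := binAvg_lin t 1 (-(δ / (2 * r))) M
    (fun i _ => A m₁ + B m₂ - δ * r + (-(δ / (2 * r))) * ((i:ℝ) - m₁) ^ 2)
    (fun _ j => ((j:ℝ) - m₂) ^ 2)
  have L2 := binAvg_lin t 1 (-(δ / (2 * r))) M
    (fun _ _ => A m₁ + B m₂ - δ * r) (fun i _ => ((i:ℝ) - m₁) ^ 2)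
  simp only [one_mul] at L1 L2
  rw [L1, L2, binAvg_const, binAvg_sq, binAvg_sq']
  linarith

lemma free_superadd (hP : Mix f δ) {α : ℝ} (hα : 0 < α) {N₁ N₂ : ℕ}
    (h1 : 1 ≤ N₁) (h2 : 1 ≤ N₂) :
    free f N₁ ⌊α * N₁⌋₊ + free f N₂ ⌊α * N₂⌋₊ - δ * (α + 4) * √((N₁:ℝ) + N₂) ≤
      free f (N₁ + N₂) ⌊α * (N₁ + N₂ : ℕ)⌋₊ := by
  have hf : Continuous f := hP.cont
  have hb := hP.bnd
  have hδ0 : 0 ≤ δ := delta_nonneg hf hb
  set N := (N₁:ℝ) + N₂ with hNdef
  have n1 : (1:ℝ) ≤ N₁ := by exact_mod_cast h1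
  have n2 : (1:ℝ) ≤ N₂ := by exact_mod_cast h2
  have hN : 0 < N := by linarith
  set θ := (N₁:ℝ) / N with hθ
  have h0 : 0 ≤ θ := by positivity
  have hθ1 : θ ≤ 1 := by rw [hθ, div_le_one hN]; linarith
  set M := ⌊α * (N₁ + N₂ : ℕ)⌋₊
  set a := fun s : (Fin N₁ → Bool) × (Fin N₂ → Bool) => xv N₁ s.1
  set b := fun s : (Fin N₁ → Bool) × (Fin N₂ → Bool) => xv N₂ s.2
  set W := fun s : (Fin N₁ → Bool) × (Fin N₂ → Bool) => wt N₁ s.1 * wt N₂ s.2
  have hW : ∀ s, 0 < W s := fun s => by simp only [W, wt]; positivity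
  have e1 : free f (N₁ + N₂) M = (avg f (cvec a b θ))^[M] (lse W) 0 := by
    rw [free, iterate_transfer hf hb finSumFinEquiv
      ((Equiv.sumArrowEquivProdArrow (Fin N₁) (Fin N₂) Bool).symm.trans
        (Equiv.arrowCongr finSumFinEquiv (Equiv.refl Bool))) (x := cvec a b θ) (W := W) ?_ hW ?_]
    · rfl
    · intro s k
      have sN : √((N₁ + N₂ : ℕ) : ℝ) = √N := by push_cast; rfl
      simp only [xv, sN, Equiv.trans_apply, Equiv.arrowCongr_apply, Function.comp,
        Equiv.symm_apply_apply, Equiv.coe_refl, id]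
      rcases k with i | i
      · simp only [cvec, a, xv, Sum.elim_inl, Equiv.sumArrowEquivProdArrow, Equiv.coe_fn_symm_mk]
        rw [hθ, Real.sqrt_div (Nat.cast_nonneg _)]
        have : √(N₁:ℝ) ≠ 0 := (Real.sqrt_pos.2 (by linarith)).ne'
        field_simp
      · simp only [cvec, b, xv, Sum.elim_inr, Equiv.sumArrowEquivProdArrow, Equiv.coe_fn_symm_mk]
        rw [show 1 - θ = N₂ / N by rw [hθ]; field_simp; ring, Real.sqrt_div (Nat.cast_nonneg _)]
        have : √(N₂:ℝ) ≠ 0 := (Real.sqrt_pos.2 (by linarith)).ne'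
        field_simp
    · intro s; simp only [W, wt]; rw [pow_add]
  rw [e1]
  set m₁ := ⌊α * N₁⌋₊
  set m₂ := ⌊α * N₂⌋₊
  set r := √N
  have hr : 0 < r := Real.sqrt_pos.2 hN
  refine le_trans ?_ (penalty hP (fun _ => by unfold wt; positivity)
    (fun _ => by unfold wt; positivity) h0 hθ1 M m₁ m₂ hr)
  unfold free
  have eN : ((N₁ + N₂ : ℕ) : ℝ) = N := by push_cast; rfl
  have hM : (M:ℝ) ≤ α * N :=
    (Nat.floor_le (show 0 ≤ α * ((N₁ + N₂ : ℕ) : ℝ) by positivity)).trans_eq (by rw [eN])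
  have hM' : α * N < M + 1 := by
    rw [← eN]; exact Nat.lt_floor_add_one _
  have am : (m₁:ℝ) ≤ α * N₁ := Nat.floor_le (by positivity)
  have am' : α * N₁ < m₁ + 1 := Nat.lt_floor_add_one _
  have bm : (m₂:ℝ) ≤ α * N₂ := Nat.floor_le (by positivity)
  have bm' : α * N₂ < m₂ + 1 := Nat.lt_floor_add_one _
  have t1 : θ * (α * N) = α * N₁ := by rw [hθ]; field_simp
  have t2 : (1 - θ) * (α * N) = α * N₂ := by rw [hθ]; field_simp; ring
  have d1 : (θ * M - m₁) ^ 2 ≤ 1 := by
    have u1 := mul_le_mul_of_nonneg_left hM h0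
    have u2 := mul_le_mul_of_nonneg_left hM'.le h0
    exact (sq_le_one_iff_abs_le_one _).2 (abs_le.2 ⟨by linarith, by linarith⟩)
  have d2 : ((1 - θ) * M - m₂) ^ 2 ≤ 1 := by
    have u1 := mul_le_mul_of_nonneg_left hM (show 0 ≤ 1 - θ by linarith)
    have u2 := mul_le_mul_of_nonneg_left hM'.le (show 0 ≤ 1 - θ by linarith)
    exact (sq_le_one_iff_abs_le_one _).2 (abs_le.2 ⟨by linarith, by linarith⟩)
  have d3 : (M:ℝ) * θ * (1 - θ) ≤ α * N := by
    have h' : θ * (1 - θ) ≤ 1 := by nlinarith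
    have := mul_le_mul_of_nonneg_left h' (Nat.cast_nonneg (α := ℝ) M)
    linarith [mul_one (M:ℝ), mul_assoc (M:ℝ) θ (1 - θ)]
  have hrr : r * r = N := Real.mul_self_sqrt hN.le
  have key : δ / (2 * r) * (2 * (α * N + 1)) ≤ δ * (α + 1) * r := by
    rw [div_mul_eq_mul_div, div_le_iff₀ (by positivity)]
    calc δ * (2 * (α * N + 1)) ≤ δ * (2 * (α * N + N)) := by
          refine mul_le_mul_of_nonneg_left ?_ hδ0; linarith
      _ = δ * (α + 1) * r * (2 * r) := by rw [← hrr]; ring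
  have c0 : 0 ≤ δ / (2 * r) := by positivity
  have k2 := mul_le_mul_of_nonneg_left (show (M:ℝ) * θ * (1 - θ) + (θ * M - m₁) ^ 2 +
    ((M:ℝ) * θ * (1 - θ) + ((1 - θ) * M - m₂) ^ 2) ≤ 2 * (α * N + 1) by linarith) c0
  have k3 : 0 ≤ δ * r := mul_nonneg hδ0 hr.le
  linarith

lemma free_limit (hP : Mix f δ) {α : ℝ} (hα : 0 < α) :
    ∃ l, Tendsto (fun N : ℕ => free f N ⌊α * N⌋₊ / N) atTop (𝓝 l) := by
  have hf : Continuous f := hP.cont
  have hb := hP.bnd
  have hδ0 : 0 ≤ δ := delta_nonneg hf hb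
  obtain ⟨l, hl⟩ := tendsto_div_of_almost_subadd (u := fun N => -free f N ⌊α * N⌋₊)
    (C := δ * (α + 4)) (L := -(δ * α)) (by positivity) (fun m n hm hn => by
      have := free_superadd hP hα hm hn
      linarith) (fun n hn => by
      have hn0 : (0:ℝ) < n := by exact_mod_cast hn
      rw [le_div_iff₀ hn0]
      have h := (abs_le.1 (abs_iterate_sub hf hb (good_lse (W := wt n) fun _ => by unfold wt; positivity)
        (xv n) 0 ⌊α * (n:ℝ)⌋₊ 0)).2
      have z : lse (wt n) 0 = 0 := by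
        simp [lse, wt]
      rw [Function.iterate_zero_apply, z, Nat.cast_zero, sub_zero, sub_zero, Nat.abs_cast] at h
      have := mul_le_mul_of_nonneg_left (Nat.floor_le (show 0 ≤ α * (n:ℝ) by positivity)) hδ0
      simp only [free]
      linarith)
  refine ⟨-l, hl.neg.congr fun N => ?_⟩
  rw [neg_div, neg_neg]

/-- the penalised interpolation inequality for arbitrary laws on the two unit spheres -/
lemma penalty_measure {ι κ : Type} [Fintype ι] [Fintype κ] (hP : Mix f δ) {ν₁ : Measure (ι → ℝ)} {ν₂ : Measure (κ → ℝ)}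
    [IsProbabilityMeasure ν₁] [IsProbabilityMeasure ν₂] (h₁ : ∀ᵐ x ∂ν₁, dot x x = 1)
    (h₂ : ∀ᵐ x ∂ν₂, dot x x = 1) {t : ℝ} (h0 : 0 ≤ t) (h1 : t ≤ 1) (M m₁ m₂ : ℕ) {r : ℝ} (hr : 0 < r) :
    freeM f ν₁ m₁ + freeM f ν₂ m₂ - δ * r
      - δ / (2 * r) * ((M:ℝ) * t * (1 - t) + (t * M - m₁) ^ 2
          + ((M:ℝ) * t * (1 - t) + ((1 - t) * M - m₂) ^ 2)) ≤
      freeM f ((ν₁.prod ν₂).map (cv t)) M := by
  have hf : Continuous f := hP.cont
  have hb := hP.bnd
  have hL := hP.lip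
  set L1 := ∫ z, l1 z ∂gauss ι
  set L2 := ∫ z, l1 z ∂gauss κ
  set L := ∫ z, l1 z ∂gauss (ι ⊕ κ)
  refine le_of_forall_pos_le_add fun ε hε => ?_
  set C := δ * m₁ * L1 + δ * m₂ * L2 + δ * M * L
  have hδ0 : 0 ≤ δ := delta_nonneg hf hb
  have hLn : ∀ {α : Type _} [Fintype α], 0 ≤ ∫ z, l1 z ∂gauss α := fun {α} _ =>
    integral_nonneg fun z => l1_nonneg z
  have hC : 0 ≤ C := by
    have := hLn (α := ι); have := hLn (α := κ); have := hLn (α := ι ⊕ κ)
    positivity
  set η := ε / (C + 1) with hηdef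
  have hη : 0 < η := by positivity
  obtain ⟨S, _, _, W, a, Y, hW, ha, hY, hYd, hYi⟩ := exists_finite h₁ hη
  obtain ⟨S', _, _, W', b, Y', hW', hb', hY', hYd', hYi'⟩ := exists_finite h₂ hη
  have s1 : ∀ {σ : Type} [Fintype σ] [Nonempty σ] {α : Type _} [Fintype α] (ν : Measure (α → ℝ))
      [IsProbabilityMeasure ν] {V : σ → ℝ} {c : σ → α → ℝ}, (∀ s, 0 < V s) →
      ∀ {Z : (α → ℝ) → α → ℝ}, Measurable Z →
      (∀ G : (α → ℝ) → ℝ, Continuous G → ∫ x, G (Z x) ∂ν = ∑ s, V s * G (c s)) → ∀ m : ℕ,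
      freeM f (ν.map Z) m = (avg f c)^[m] (lse V) 0 := by
    intro σ _ _ α _ ν _ V c hV Z hZ hG m
    rw [iterate_eq_integral hf hb hV c m 0, freeM]
    refine integral_congr_ae (Eventually.of_forall fun g => ?_)
    simp only [logZ, lse]
    rw [integral_map hZ.aemeasurable (continuous_energy_right hf hb g).rexp.aestronglyMeasurable,
      hG (fun x => Real.exp (energy f g x)) (continuous_energy_right hf hb g).rexp]
    simp [energy, inc]
  have e1 : freeM f ν₁ m₁ ≤ (avg f a)^[m₁] (lse W) 0 + δ * η * m₁ * L1 := by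
    have := perturb hf hb (P := ν₁) measurable_id hY hL hYd m₁
    rwa [Measure.map_id, s1 ν₁ hW hY hYi] at this
  have e2 : freeM f ν₂ m₂ ≤ (avg f b)^[m₂] (lse W') 0 + δ * η * m₂ * L2 := by
    have := perturb hf hb (P := ν₂) measurable_id hY' hL hYd' m₂
    rwa [Measure.map_id, s1 ν₂ hW' hY' hYi'] at this
  have hXm : Measurable fun p : (ι → ℝ) × (κ → ℝ) => cv t (Y p.1, Y' p.2) :=
    (continuous_cv t).measurable.comp ((hY.comp measurable_fst).prodMk (hY'.comp measurable_snd))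
  have e3 : freeM f ((ν₁.prod ν₂).map fun p => cv t (Y p.1, Y' p.2)) M ≤
      freeM f ((ν₁.prod ν₂).map (cv t)) M + δ * η * M * L := by
    refine perturb hf hb hXm (continuous_cv t).measurable hL ?_ M
    filter_upwards [measurePreserving_fst.quasiMeasurePreserving.ae hYd,
      measurePreserving_snd.quasiMeasurePreserving.ae hYd'] with p hp hp' k
    rcases k with i | j <;> simp only [cv, Sum.elim_inl, Sum.elim_inr, ← mul_sub, abs_mul,
      abs_of_nonneg (Real.sqrt_nonneg _)]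
    · rw [abs_sub_comm]
      exact (mul_le_mul_of_nonneg_left (hp i) (Real.sqrt_nonneg _)).trans
        (mul_le_of_le_one_left hη.le (Real.sqrt_le_one.2 h1))
    · rw [abs_sub_comm]
      exact (mul_le_mul_of_nonneg_left (hp' j) (Real.sqrt_nonneg _)).trans
        (mul_le_of_le_one_left hη.le (Real.sqrt_le_one.2 (by linarith)))
  have e4 : freeM f ((ν₁.prod ν₂).map fun p => cv t (Y p.1, Y' p.2)) M =
      (avg f (cvec (fun s : S × S' => a s.1) (fun s => b s.2) t))^[M]
        (lse fun s => W s.1 * W' s.2) 0 := by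
    rw [iterate_eq_integral hf hb (W := fun s : S × S' => W s.1 * W' s.2)
      (fun s => mul_pos (hW s.1) (hW' s.2)), freeM]
    refine integral_congr_ae (Eventually.of_forall fun g => ?_)
    simp only [logZ, lse]
    rw [integral_map hXm.aemeasurable (continuous_energy_right hf hb g).rexp.aestronglyMeasurable,
      integral_prod _ (integrable_exp_energy hf hb hXm g)]
    congr 1
    have hG : ∀ u : ι → ℝ, Continuous fun v : κ → ℝ => Real.exp (energy f g (cv t (u, v))) := fun u =>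
      (((continuous_energy_right hf hb g).comp ((continuous_cv t).comp
        (continuous_const.prodMk continuous_id)))).rexp
    have hG' : ∀ v : κ → ℝ, Continuous fun u : ι → ℝ => Real.exp (energy f g (cv t (u, v))) := fun v =>
      (((continuous_energy_right hf hb g).comp ((continuous_cv t).comp
        (continuous_id.prodMk continuous_const)))).rexp
    simp only [fun u : ι → ℝ => hYi' _ (hG u)]
    have hsi : ∀ s : S', Integrable (fun u => W' s * Real.exp (energy f g (cv t (Y u, b s)))) ν₁ :=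
      fun s => (integrable_exp_energy hf hb (X := fun u => cv t (Y u, b s))
        ((continuous_cv t).measurable.comp (hY.prodMk measurable_const)) g).const_mul _
    rw [integral_finsetSum _ fun s _ => hsi s]
    simp only [integral_const_mul, fun v : κ → ℝ => hYi _ (hG' v), Finset.mul_sum]
    rw [Fintype.sum_prod_type, Finset.sum_comm]
    refine Finset.sum_congr rfl fun s _ => Finset.sum_congr rfl fun s' _ => ?_
    simp only [energy, inc, cv, cvec, Pi.zero_apply, zero_add, Finset.sum_apply, Pi.add_apply]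
    ring
  have key := penalty (a := a) (b := b) hP hW hW' h0 h1 M m₁ m₂ hr
  have hηC : η * C ≤ ε := by
    rw [hηdef, div_mul_eq_mul_div, div_le_iff₀ (by positivity)]
    exact mul_le_mul_of_nonneg_left (by linarith) hε.le
  have hex : η * C = δ * η * m₁ * L1 + δ * η * m₂ * L2 + δ * η * M * L := by simp only [C]; ring
  linarith

lemma freeM_superadd {N₁ N₂ : ℕ} (hP : Mix f δ) {α : ℝ} (hα : 0 < α)
    (h1 : 1 ≤ N₁) (h2 : 1 ≤ N₂) :
    freeM f (dirLaw (Fin N₁)) ⌊α * N₁⌋₊ + freeM f (dirLaw (Fin N₂)) ⌊α * N₂⌋₊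
        - δ * (16 * K₂ * α ^ 2 + α + 3) * √((N₁:ℝ) + N₂) ≤
      freeM f (dirLaw (Fin (N₁ + N₂))) ⌊α * (N₁ + N₂ : ℕ)⌋₊ := by
  have hf : Continuous f := hP.cont
  have hb := hP.bnd
  have hδ0 : 0 ≤ δ := delta_nonneg hf hb
  have : Nonempty (Fin N₁) := ⟨⟨0, h1⟩⟩
  have : Nonempty (Fin N₂) := ⟨⟨0, h2⟩⟩
  set M := ⌊α * (N₁ + N₂ : ℕ)⌋₊
  set m₁ := ⌊α * N₁⌋₊
  set m₂ := ⌊α * N₂⌋₊
  rw [freeM_reindex hf hb finSumFinEquiv M]
  set ν₁ := dirLaw (Fin N₁)
  set ν₂ := dirLaw (Fin N₂)
  set ρ := (radLaw (Fin N₁)).prod (radLaw (Fin N₂))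
  set G := Measure.pi fun _ : Fin M => gauss (Fin N₁ ⊕ Fin N₂)
  set V := fun r : ℝ × ℝ => (ν₁.prod ν₂).map (cv (ratio r))
  have hV : ∀ r, IsProbabilityMeasure (V r) := fun r =>
    Measure.isProbabilityMeasure_map (continuous_cv _).measurable.aemeasurable
  set Z := fun (g : Fin M → Fin N₁ ⊕ Fin N₂ → ℝ) (r : ℝ × ℝ) => ∫ x, Real.exp (energy f g x) ∂V r
  have hcv : Measurable fun q : (ℝ × ℝ) × ((Fin N₁ → ℝ) × (Fin N₂ → ℝ)) => cv (ratio q.1) q.2 := by
    refine measurable_pi_lambda _ fun k => ?_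
    rcases k with i | j <;> simp only [cv, ratio, Sum.elim_inl, Sum.elim_inr] <;> fun_prop
  have hZe : ∀ g r, Z g r = ∫ p, Real.exp (energy f g (cv (ratio r) p)) ∂ν₁.prod ν₂ := fun g r =>
    integral_map (continuous_cv _).measurable.aemeasurable
      (continuous_energy_right hf hb g).rexp.aestronglyMeasurable
  have hZm : Measurable fun q : (Fin M → Fin N₁ ⊕ Fin N₂ → ℝ) × (ℝ × ℝ) => Z q.1 q.2 := by
    simp only [hZe]
    exact (StronglyMeasurable.integral_prod_right' (ν := ν₁.prod ν₂)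
      (f := fun q : ((Fin M → Fin N₁ ⊕ Fin N₂ → ℝ) × (ℝ × ℝ)) × ((Fin N₁ → ℝ) × (Fin N₂ → ℝ)) =>
        Real.exp (energy f q.1.1 (cv (ratio q.1.2) q.2)))
      (((continuous_energy hf hb).rexp.measurable.comp ((measurable_fst.comp measurable_fst).prodMk
        (hcv.comp ((measurable_snd.comp measurable_fst).prodMk measurable_snd)))).stronglyMeasurable)).measurable
  have hlog : ∀ g r, |Real.log (Z g r)| ≤ M * δ := fun g r => abs_logZ hf hb (ν := V r) g
  have hjensen : ∀ g, ∫ r, Real.log (Z g r) ∂ρ ≤ logZ f (dirLaw (Fin N₁ ⊕ Fin N₂)) g := by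
    intro g
    refine (Vale.Agent.P157.integral_log_le (ν := ρ) (X := fun r => Z g r)
      (fun r => lt_of_lt_of_le (Real.exp_pos _) (Z_bounds hf hb (ν := V r) g).1)
      (Integrable.of_bound (hZm.comp (measurable_const.prodMk measurable_id)).aestronglyMeasurable
        (Real.exp (M * δ)) (Eventually.of_forall fun r => by
          obtain ⟨a, b⟩ := Z_bounds hf hb (ν := V r) g
          rw [Real.norm_eq_abs, abs_of_pos (lt_of_lt_of_le (Real.exp_pos _) a)]
          exact b))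
      (Integrable.of_bound ((hZm.comp (measurable_const.prodMk measurable_id)).log).aestronglyMeasurable
        (M * δ) (Eventually.of_forall fun r => hlog g r))).trans (le_of_eq ?_)
    simp only [logZ, ← polar_split N₁ N₂ h1 h2, hZe]
    congr 1
    rw [integral_map hcv.aemeasurable (continuous_energy_right hf hb g).rexp.aestronglyMeasurable,
      integral_prod _ (integrable_exp_energy hf hb hcv g)]
  have hint : Integrable (Function.uncurry fun g r => Real.log (Z g r)) (G.prod ρ) :=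
    Integrable.of_bound hZm.log.aestronglyMeasurable (M * δ) (Eventually.of_forall fun q => hlog q.1 q.2)
  have hlow : ∫ r, freeM f (V r) M ∂ρ ≤ freeM f (dirLaw (Fin N₁ ⊕ Fin N₂)) M := by
    refine le_trans (le_of_eq ?_) (integral_mono hint.integral_prod_left (integrable_logZ hf hb) hjensen)
    simp only [Function.uncurry]
    rw [integral_integral_swap hint]
    rfl
  refine le_trans ?_ hlow
  set N := (N₁:ℝ) + N₂ with hNdef
  have n1 : (1:ℝ) ≤ N₁ := by exact_mod_cast h1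
  have n2 : (1:ℝ) ≤ N₂ := by exact_mod_cast h2
  have hN : 0 < N := by linarith
  set θ := (N₁:ℝ) / N with hθ
  have h0 : 0 ≤ θ := by positivity
  have hθ1 : θ ≤ 1 := by rw [hθ, div_le_one hN]; linarith
  set s := √N
  have hs : 0 < s := Real.sqrt_pos.2 hN
  have eN : ((N₁ + N₂ : ℕ) : ℝ) = N := by push_cast; rfl
  have hM : (M:ℝ) ≤ α * N :=
    (Nat.floor_le (show 0 ≤ α * ((N₁ + N₂ : ℕ) : ℝ) by positivity)).trans_eq (by rw [eN])
  have hM' : α * N < M + 1 := by rw [← eN]; exact Nat.lt_floor_add_one _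
  have am : (m₁:ℝ) ≤ α * N₁ := Nat.floor_le (by positivity)
  have am' : α * N₁ < m₁ + 1 := Nat.lt_floor_add_one _
  have bm : (m₂:ℝ) ≤ α * N₂ := Nat.floor_le (by positivity)
  have bm' : α * N₂ < m₂ + 1 := Nat.lt_floor_add_one _
  have t1 : θ * (α * N) = α * N₁ := by rw [hθ]; field_simp
  have t2 : (1 - θ) * (α * N) = α * N₂ := by rw [hθ]; field_simp; ring
  have d1 : (θ * M - m₁) ^ 2 ≤ 1 := by
    have u1 := mul_le_mul_of_nonneg_left hM h0
    have u2 := mul_le_mul_of_nonneg_left hM'.le h0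
    exact (sq_le_one_iff_abs_le_one _).2 (abs_le.2 ⟨by linarith, by linarith⟩)
  have d2 : ((1 - θ) * M - m₂) ^ 2 ≤ 1 := by
    have u1 := mul_le_mul_of_nonneg_left hM (show 0 ≤ 1 - θ by linarith)
    have u2 := mul_le_mul_of_nonneg_left hM'.le (show 0 ≤ 1 - θ by linarith)
    exact (sq_le_one_iff_abs_le_one _).2 (abs_le.2 ⟨by linarith, by linarith⟩)
  set c := δ / (2 * s)
  have hc : 0 ≤ c := by positivity
  set A := freeM f ν₁ m₁ + freeM f ν₂ m₂ - δ * s - c * (2 * M + 4)
  have hpt : ∀ r, A - c * 4 * (M:ℝ) ^ 2 * (ratio r - θ) ^ 2 ≤ freeM f (V r) M := by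
    intro r
    obtain ⟨r0, r1⟩ := ratio_mem r
    refine le_trans ?_ (penalty_measure hP dirLaw_unit dirLaw_unit r0 r1 M m₁ m₂ hs)
    set t := ratio r
    have q1 : (t * M - m₁) ^ 2 ≤ 2 * (M:ℝ) ^ 2 * (t - θ) ^ 2 + 2 := by
      have := sq_nonneg ((t - θ) * M - (θ * M - m₁))
      linarith
    have q2 : ((1 - t) * M - m₂) ^ 2 ≤ 2 * (M:ℝ) ^ 2 * (t - θ) ^ 2 + 2 := by
      have := sq_nonneg ((θ - t) * M - ((1 - θ) * M - m₂))
      linarith
    have q3 : (M:ℝ) * t * (1 - t) ≤ M := by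
      have h' : t * (1 - t) ≤ 1 := by nlinarith
      have := mul_le_mul_of_nonneg_left h' (Nat.cast_nonneg (α := ℝ) M)
      linarith
    have := mul_le_mul_of_nonneg_left (show (M:ℝ) * t * (1 - t) + (t * M - m₁) ^ 2 +
      ((M:ℝ) * t * (1 - t) + ((1 - t) * M - m₂) ^ 2) ≤ 2 * M + 4 + 4 * (M:ℝ) ^ 2 * (t - θ) ^ 2 by linarith) hc
    simp only [A]
    linarith
  have hdev : ∫ r, (ratio r - θ) ^ 2 ∂ρ ≤ 8 * K₂ / N := by
    have e := integral_map (μ := ρ) measurable_ratio.aemeasurable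
      (f := fun t => (t - θ) ^ 2) (Continuous.aestronglyMeasurable (by fun_prop))
    rw [← e, radial_map, integral_map measurable_frac.aemeasurable (Continuous.aestronglyMeasurable (by fun_prop))]
    have := frac_dev (ι := Fin N₁) (κ := Fin N₂) (by simp only [Fintype.card_fin]; exact hN)
    simpa [hθ, hNdef] using this
  have hri : Integrable (fun r => (ratio r - θ) ^ 2) ρ :=
    Integrable.of_bound ((measurable_ratio.sub measurable_const).pow_const 2).aestronglyMeasurable 1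
      (Eventually.of_forall fun r => by
        obtain ⟨r0, r1⟩ := ratio_mem r
        rw [Real.norm_eq_abs, abs_pow]
        refine pow_le_one₀ (abs_nonneg _) (abs_le.2 ?_)
        constructor <;> linarith)
  have hVi : Integrable (fun r => freeM f (V r) M) ρ := hint.integral_prod_right
  refine le_trans ?_ (integral_mono ((integrable_const A).sub (hri.const_mul _)) hVi hpt)
  rw [integral_sub' (integrable_const A) (hri.const_mul _), integral_const_mul, integral_const,
    probReal_univ, one_smul]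
  have k1 : c * 4 * (M:ℝ) ^ 2 * ∫ r, (ratio r - θ) ^ 2 ∂ρ ≤ c * (32 * K₂ * α ^ 2 * N) := by
    calc _ ≤ c * 4 * (α * N) ^ 2 * (8 * K₂ / N) :=
          mul_le_mul (mul_le_mul_of_nonneg_left (pow_le_pow_left₀ (Nat.cast_nonneg M) hM 2) (by positivity))
            hdev (integral_nonneg fun r => sq_nonneg _) (by positivity)
      _ = _ := by field_simp; ring
  have k2 : c * (2 * M + 4 + 32 * K₂ * α ^ 2 * N) ≤ δ * (16 * K₂ * α ^ 2 + α + 2) * s := by
    calc _ ≤ c * ((2 * α + 4 + 32 * K₂ * α ^ 2) * N) := by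
          refine mul_le_mul_of_nonneg_left ?_ hc
          linarith
      _ = _ := by
          have hss : s * s = N := Real.mul_self_sqrt hN.le
          simp only [c]; rw [← hss]; field_simp; ring
  simp only [A]
  linarith

lemma sphere_limit (hP : Mix f δ) {α : ℝ} (hα : 0 < α) :
    ∃ l, Tendsto (fun N : ℕ => freeM f (dirLaw (Fin N)) ⌊α * N⌋₊ / N) atTop (𝓝 l) := by
  have hf : Continuous f := hP.cont
  have hb := hP.bnd
  have hδ0 : 0 ≤ δ := delta_nonneg hf hb
  have hK := K₂_nonneg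
  obtain ⟨l, hl⟩ := tendsto_div_of_almost_subadd (u := fun N => -freeM f (dirLaw (Fin N)) ⌊α * N⌋₊)
    (C := δ * (16 * K₂ * α ^ 2 + α + 3)) (L := -(δ * α)) (by positivity) (fun m n hm hn => by
      have := freeM_superadd hP hα hm hn
      linarith) (fun n hn => by
      have hn0 : (0:ℝ) < n := by exact_mod_cast hn
      rw [le_div_iff₀ hn0]
      have h := (abs_le.1 (abs_freeM hf hb (dirLaw (Fin n)) ⌊α * (n:ℝ)⌋₊)).2
      have := mul_le_mul_of_nonneg_left (Nat.floor_le (show 0 ≤ α * (n:ℝ) by positivity)) hδ0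
      linarith)
  refine ⟨-l, hl.neg.congr fun N => ?_⟩
  rw [neg_div, neg_neg]

end Vale.Agent.P157.PD
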